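import Mathlib

/-!
# Annular sectors and the Neumann Rayleigh quotient
-/

open Set Real MeasureTheory

namespace Vale.Agent.P071.AnnSector

/-- `(r, θ) ↦ (r cos θ, r sin θ)`. -/
noncomputable def polarMap (p : ℝ × ℝ) : ℝ × ℝ := (p.1 * cos p.2, p.1 * sin p.2)

/-- The open annular sector `a < r < b`, `|θ| < h`. -/
def annSector (a b h : ℝ) : Set (ℝ × ℝ) := polarMap '' (Ioo a b ×ˢ Ioo (-h) h)

/-- Real functions that are `C¹` on an open set containing the closure and have mean zero on `Ω`. -/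
def Admissible (Ω : Set (ℝ × ℝ)) (v : ℝ × ℝ → ℝ) : Prop :=
  (∃ N : Set (ℝ × ℝ), IsOpen N ∧ closure Ω ⊆ N ∧ ContDiffOn ℝ 1 v N) ∧ ∫ x in Ω, v x = 0

/-- The Dirichlet integral, for the Euclidean gradient. -/
noncomputable def energy (Ω : Set (ℝ × ℝ)) (v : ℝ × ℝ → ℝ) : ℝ :=
  ∫ x in Ω, ((fderiv ℝ v x (1, 0)) ^ 2 + (fderiv ℝ v x (0, 1)) ^ 2)

/-- The squared `L²` norm. -/
noncomputable def mass (Ω : Set (ℝ × ℝ)) (v : ℝ × ℝ → ℝ) : ℝ := ∫ x in Ω, v x ^ 2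

/-- A mean zero minimiser of the Rayleigh quotient, not zero in `L²(Ω)`. -/
def IsNeumannMinimizer (Ω : Set (ℝ × ℝ)) (u : ℝ × ℝ → ℝ) : Prop :=
  Admissible Ω u ∧ 0 < mass Ω u ∧
    ∀ v, Admissible Ω v → energy Ω u * mass Ω v ≤ energy Ω v * mass Ω u

end Vale.Agent.P071.AnnSector
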