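import Vale.Agent.P071.AnnSector.Core
import Vale.Agent.P071.AnnSector.Defs

/-!
# From the plane to the rectangle of polar coordinates
-/

open Set Real MeasureTheory intervalIntegral

namespace Vale.Agent.P071.AnnSector

variable {a b h : ℝ}

lemma polarMap_eq : polarMap = polarCoord.symm := rfl

lemma continuous_polarMap : Continuous polarMap := by unfold polarMap; fun_prop

lemma rect_subset_target (ha : 0 < a) (hπ : h < π) :
    Icc a b ×ˢ Icc (-h) h ⊆ polarCoord.target := by
  rintro ⟨r, t⟩ ⟨hr, ht⟩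
  exact ⟨lt_of_lt_of_le ha hr.1, by linarith [ht.1], by linarith [ht.2]⟩

lemma open_rect_subset : Ioo a b ×ˢ Ioo (-h) h ⊆ Icc a b ×ˢ Icc (-h) h :=
  prod_mono Ioo_subset_Icc_self Ioo_subset_Icc_self

lemma isOpen_annSector (ha : 0 < a) (hπ : h < π) : IsOpen (annSector a b h) :=
  polarCoord.symm.isOpen_image_of_subset_source (isOpen_Ioo.prod isOpen_Ioo)
    (open_rect_subset.trans (rect_subset_target ha hπ))

lemma closure_annSector (hab : a < b) (hh : 0 < h) :
    closure (annSector a b h) = polarMap '' (Icc a b ×ˢ Icc (-h) h) := by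
  apply subset_antisymm
  · exact closure_minimal (image_mono open_rect_subset)
      ((isCompact_Icc.prod isCompact_Icc).image continuous_polarMap).isClosed
  · have : Icc a b ×ˢ Icc (-h) h = closure (Ioo a b ×ˢ Ioo (-h) h) := by
      rw [closure_prod_eq, closure_Ioo hab.ne, closure_Ioo (by linarith)]
    rw [this]
    exact image_closure_subset_closure_image continuous_polarMap

lemma mem_frontier (ha : 0 < a) (hab : a < b) (hh : 0 < h) (hπ : h < π) {r t : ℝ}
    (hr : r ∈ Icc a b) (ht : t ∈ Icc (-h) h) (he : r = a ∨ r = b ∨ t = -h ∨ t = h) :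
    polarMap (r, t) ∈ frontier (annSector a b h) := by
  rw [(isOpen_annSector ha hπ).frontier_eq, closure_annSector hab hh]
  refine ⟨⟨(r, t), ⟨hr, ht⟩, rfl⟩, ?_⟩
  rintro ⟨p, hp, hpe⟩
  have heq : p = (r, t) := polarCoord.symm.injOn
    (rect_subset_target ha hπ (open_rect_subset hp)) (rect_subset_target ha hπ (by exact ⟨hr, ht⟩)) hpe
  subst heq
  obtain ⟨⟨h1, h2⟩, h3, h4⟩ := hp
  rcases he with he | he | he | he <;> linarith

/-- The clamp onto the rectangle. -/
def clamp (a b h : ℝ) (p : ℝ × ℝ) : ℝ × ℝ := (max a (min b p.1), max (-h) (min h p.2))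

lemma clamp_mem (hab : a < b) (hh : 0 < h) (p : ℝ × ℝ) :
    clamp a b h p ∈ Icc a b ×ˢ Icc (-h) h :=
  ⟨⟨le_max_left _ _, max_le hab.le (min_le_left _ _)⟩,
    le_max_left _ _, max_le (by linarith) (min_le_left _ _)⟩

lemma clamp_eq {r t : ℝ} (hr : r ∈ Icc a b) (ht : t ∈ Icc (-h) h) :
    clamp a b h (r, t) = (r, t) := by simp [clamp, hr.1, hr.2, ht.1, ht.2]

lemma continuous_clamp : Continuous (clamp a b h) := by unfold clamp; fun_prop

/-- Pulling a function back to the rectangle, extended by clamping. -/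
noncomputable def pull (a b h : ℝ) (F : ℝ × ℝ → ℝ) : ℝ → ℝ → ℝ :=
  fun r t => F (polarMap (clamp a b h (r, t)))

lemma continuous_pull (hab : a < b) (hh : 0 < h) {F : ℝ × ℝ → ℝ}
    (hF : ContinuousOn F (polarMap '' (Icc a b ×ˢ Icc (-h) h))) :
    Continuous (pull a b h F).uncurry :=
  hF.comp_continuous (continuous_polarMap.comp continuous_clamp)
    fun p => ⟨_, clamp_mem hab hh p, rfl⟩

lemma pull_eq {F : ℝ × ℝ → ℝ} {r t : ℝ} (hr : r ∈ Icc a b) (ht : t ∈ Icc (-h) h) :
    pull a b h F r t = F (polarMap (r, t)) := by rw [pull, clamp_eq hr ht]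

lemma setIntegral_annSector (ha : 0 < a) (hab : a < b) (hh : 0 < h) (hπ : h < π)
    {F : ℝ × ℝ → ℝ} (hF : ContinuousOn F (polarMap '' (Icc a b ×ˢ Icc (-h) h))) :
    ∫ x in annSector a b h, F x
      = ∫ r in a..b, ∫ t in (-h)..h, r * F (polarMap (r, t)) := by
  have hsub := open_rect_subset.trans (rect_subset_target (b := b) ha hπ)
  have hmeas : MeasurableSet (annSector a b h) := (isOpen_annSector ha hπ).measurableSet
  rw [← MeasureTheory.integral_indicator hmeas, ← integral_comp_polarCoord_symm]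
  have e : ∀ p ∈ polarCoord.target, p.1 • (annSector a b h).indicator F (polarCoord.symm p)
      = (Ioo a b ×ˢ Ioo (-h) h).indicator (fun p => p.1 * F (polarMap p)) p := by
    intro p hp
    by_cases hm : p ∈ Ioo a b ×ˢ Ioo (-h) h
    · rw [indicator_of_mem hm, indicator_of_mem (show polarCoord.symm p ∈ annSector a b h from
        ⟨p, hm, rfl⟩), smul_eq_mul, ← polarMap_eq]
    · rw [indicator_of_notMem hm, indicator_of_notMem, smul_zero]
      rintro ⟨q, hq, hqe⟩
      exact hm (polarCoord.symm.injOn (hsub hq) hp hqe ▸ hq)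
  rw [setIntegral_congr_fun polarCoord.open_target.measurableSet e,
    setIntegral_indicator (measurableSet_Ioo.prod measurableSet_Ioo),
    inter_eq_self_of_subset_right hsub, Measure.volume_eq_prod]
  have hc : ContinuousOn (fun p : ℝ × ℝ => p.1 * F (polarMap p)) (Icc a b ×ˢ Icc (-h) h) :=
    continuous_fst.continuousOn.mul (hF.comp continuous_polarMap.continuousOn (mapsTo_image _ _))
  rw [setIntegral_prod _ ((hc.integrableOn_compact (isCompact_Icc.prod isCompact_Icc)).mono_set
    open_rect_subset), integral_of_le hab.le, MeasureTheory.integral_Ioc_eq_integral_Ioo]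
  refine setIntegral_congr_fun measurableSet_Ioo fun r _ => ?_
  rw [integral_of_le (by linarith : -h ≤ h), MeasureTheory.integral_Ioc_eq_integral_Ioo]

lemma fderiv_apply_pair (L : ℝ × ℝ →L[ℝ] ℝ) (x y : ℝ) :
    L (x, y) = x * L (1, 0) + y * L (0, 1) := by
  have : ((x, y) : ℝ × ℝ) = x • (1, 0) + y • (0, 1) := by simp
  rw [this, map_add, map_smul, map_smul, smul_eq_mul, smul_eq_mul]

/-- Radial derivative in Cartesian terms. -/
noncomputable def radialD (v : ℝ × ℝ → ℝ) (r t : ℝ) : ℝ :=
  cos t * fderiv ℝ v (polarMap (r, t)) (1, 0) + sin t * fderiv ℝ v (polarMap (r, t)) (0, 1)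

/-- Angular derivative in Cartesian terms. -/
noncomputable def angularD (v : ℝ × ℝ → ℝ) (r t : ℝ) : ℝ :=
  r * (-sin t * fderiv ℝ v (polarMap (r, t)) (1, 0) + cos t * fderiv ℝ v (polarMap (r, t)) (0, 1))

lemma hasDerivAt_radial {v : ℝ × ℝ → ℝ} {r t : ℝ}
    (hv : DifferentiableAt ℝ v (polarMap (r, t))) :
    HasDerivAt (fun s => v (polarMap (s, t))) (radialD v r t) r := by
  have h1 : HasDerivAt (fun s => polarMap (s, t)) (cos t, sin t) r :=
    ((hasDerivAt_id r).mul_const (cos t)).congr_deriv (one_mul _) |>.prodMk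
      (((hasDerivAt_id r).mul_const (sin t)).congr_deriv (one_mul _))
  have := hv.hasFDerivAt.comp_hasDerivAt r h1
  rwa [fderiv_apply_pair] at this

lemma hasDerivAt_angular {v : ℝ × ℝ → ℝ} {r t : ℝ}
    (hv : DifferentiableAt ℝ v (polarMap (r, t))) :
    HasDerivAt (fun s => v (polarMap (r, s))) (angularD v r t) t := by
  have h1 : HasDerivAt (fun s => polarMap (r, s)) (r * -sin t, r * cos t) t :=
    ((hasDerivAt_cos t).const_mul r).prodMk ((hasDerivAt_sin t).const_mul r)
  have := hv.hasFDerivAt.comp_hasDerivAt t h1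
  rw [fderiv_apply_pair] at this
  refine this.congr_deriv ?_
  simp only [angularD]; ring

section Regular

variable {N : Set (ℝ × ℝ)} {v : ℝ × ℝ → ℝ}

lemma differentiableAt_of_mem (hN : IsOpen N) (hv : ContDiffOn ℝ 1 v N) {x : ℝ × ℝ} (hx : x ∈ N) :
    DifferentiableAt ℝ v x :=
  (hv.contDiffAt (hN.mem_nhds hx)).differentiableAt (by norm_num)

lemma continuousOn_dir (hN : IsOpen N) (hv : ContDiffOn ℝ 1 v N) (e : ℝ × ℝ) :
    ContinuousOn (fun x => fderiv ℝ v x e) N :=
  (hv.continuousOn_fderiv_of_isOpen hN le_rfl).clm_apply continuousOn_const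

lemma energy_polar (ha : 0 < a) (hab : a < b) (hh : 0 < h) (hπ : h < π)
    (hN : IsOpen N) (hv : ContDiffOn ℝ 1 v N)
    (hsub : polarMap '' (Icc a b ×ˢ Icc (-h) h) ⊆ N) :
    energy (annSector a b h) v
      = ∫ r in a..b, ∫ t in (-h)..h, (r * radialD v r t ^ 2 + angularD v r t ^ 2 / max r a) := by
  rw [energy, setIntegral_annSector
    (F := fun x => (fderiv ℝ v x (1, 0)) ^ 2 + (fderiv ℝ v x (0, 1)) ^ 2) ha hab hh hπ
    ((((continuousOn_dir hN hv _).pow 2).add ((continuousOn_dir hN hv _).pow 2)).mono hsub)]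
  refine integral_congr fun r hr => integral_congr fun t _ => ?_
  rw [uIcc_of_le hab.le] at hr
  have hr0 : 0 < r := lt_of_lt_of_le ha hr.1
  simp only [radialD, angularD, max_eq_left hr.1]
  field_simp
  have := sin_sq_add_cos_sq t
  linear_combination (-(fderiv ℝ v (polarMap (r, t)) (1, 0) ^ 2
    + fderiv ℝ v (polarMap (r, t)) (0, 1) ^ 2)) * this

end Regular

lemma contDiffAt_polarCoord {q : ℝ × ℝ} (hq : q ∈ polarCoord.source) :
    ContDiffAt ℝ 1 polarCoord q := by
  have hdet : (fderivPolarCoordSymm (polarCoord q)).det ≠ 0 := by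
    rw [det_fderivPolarCoordSymm]
    exact (polarCoord.map_source hq).1.ne'
  have hsm : ContDiffAt ℝ 1 polarCoord.symm (polarCoord q) := by
    have : ContDiff ℝ 1 polarMap := by unfold polarMap; fun_prop
    exact this.contDiffAt
  exact polarCoord.symm.contDiffAt_symm hq
    (f₀' := (fderivPolarCoordSymm (polarCoord q)).toContinuousLinearEquivOfDetNeZero hdet)
    (by simpa using hasFDerivAt_polarCoord_symm (polarCoord q)) hsm

/-- The product test function `f(r) g(θ)` and its integrals. -/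
lemma product_test (ha : 0 < a) (hab : a < b) (hh : 0 < h) (hπ : h < π)
    {f f' g g' : ℝ → ℝ} (hf : ∀ r, HasDerivAt f (f' r) r) (hf' : Continuous f')
    (hg : ∀ r, HasDerivAt g (g' r) r) (hg' : Continuous g')
    (hmean : (∫ r in a..b, r * f r) * (∫ t in (-h)..h, g t) = 0) :
    ∃ v, Admissible (annSector a b h) v ∧
      mass (annSector a b h) v = (∫ r in a..b, r * f r ^ 2) * (∫ t in (-h)..h, g t ^ 2) ∧
      energy (annSector a b h) v = ∫ r in a..b, (r * f' r ^ 2 * (∫ t in (-h)..h, g t ^ 2)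
        + f r ^ 2 / max r a * (∫ t in (-h)..h, g' t ^ 2)) := by
  have cd : ∀ {φ φ' : ℝ → ℝ}, (∀ r, HasDerivAt φ (φ' r) r) → Continuous φ' → ContDiff ℝ 1 φ := by
    intro φ φ' hd hc
    have e : deriv φ = φ' := funext fun r => (hd r).deriv
    exact contDiff_one_iff_deriv.2 ⟨fun r => (hd r).differentiableAt, e ▸ hc⟩
  let v : ℝ × ℝ → ℝ := fun q => f (polarCoord q).1 * g (polarCoord q).2
  have hN : IsOpen polarCoord.source := polarCoord.open_source
  have hv : ContDiffOn ℝ 1 v polarCoord.source := fun q hq => by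
    have h0 := contDiffAt_polarCoord hq
    exact (((cd hf hf').contDiffAt.comp q h0.fst).mul
      ((cd hg hg').contDiffAt.comp q h0.snd)).contDiffWithinAt
  have hsub : polarMap '' (Icc a b ×ˢ Icc (-h) h) ⊆ polarCoord.source := by
    rintro _ ⟨p, hp, rfl⟩
    exact polarCoord.map_target (rect_subset_target ha hπ hp)
  have hval : ∀ p ∈ polarCoord.target, v (polarMap p) = f p.1 * g p.2 := fun p hp => by
    simp only [v, polarMap_eq, polarCoord.right_inv hp]
  have hcv : ContinuousOn v (polarMap '' (Icc a b ×ˢ Icc (-h) h)) := hv.continuousOn.mono hsub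
  have hK : ∀ r ∈ uIcc a b, ∀ t ∈ uIcc (-h) h, (r, t) ∈ polarCoord.target := fun r hr t ht =>
    rect_subset_target ha hπ ⟨uIcc_of_le hab.le ▸ hr, uIcc_of_le (by linarith : -h ≤ h) ▸ ht⟩
  refine ⟨v, ⟨⟨_, hN, (closure_annSector hab hh).subset.trans hsub, hv⟩, ?_⟩, ?_, ?_⟩
  · rw [setIntegral_annSector ha hab hh hπ hcv, ← hmean,
      ← intervalIntegral.integral_mul_const]
    refine integral_congr fun r hr => ?_
    simp only [← intervalIntegral.integral_const_mul]
    exact integral_congr fun t ht => by simp only [hval _ (hK r hr t ht)]; ring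
  · rw [mass, setIntegral_annSector (F := fun x => v x ^ 2) ha hab hh hπ (hcv.pow 2),
      ← intervalIntegral.integral_mul_const]
    refine integral_congr fun r hr => ?_
    simp only [← intervalIntegral.integral_const_mul]
    exact integral_congr fun t ht => by simp only [hval _ (hK r hr t ht)]; ring
  · rw [energy_polar ha hab hh hπ hN hv hsub]
    refine integral_congr fun r hr => ?_
    have hgc : Continuous g := continuous_iff_continuousAt.2 fun t => (hg t).continuousAt
    simp only [← intervalIntegral.integral_const_mul]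
    rw [← integral_add (Continuous.intervalIntegrable (by fun_prop) _ _)
      (Continuous.intervalIntegrable (by fun_prop) _ _)]
    refine integral_congr fun t ht => ?_
    have hp := hK r hr t ht
    have hd := differentiableAt_of_mem hN hv (polarCoord.map_target hp)
    have hnh := polarCoord.open_target.mem_nhds hp
    have e1 : radialD v r t = f' r * g t := by
      refine (hasDerivAt_radial hd).unique (((hf r).mul_const (g t)).congr_of_eventuallyEq ?_)
      filter_upwards [(by fun_prop : Continuous fun s => ((s, t) : ℝ × ℝ)).continuousAt.preimage_mem_nhds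
        hnh] with s hs
      exact hval _ hs
    have e2 : angularD v r t = f r * g' t := by
      refine (hasDerivAt_angular hd).unique (((hg t).const_mul (f r)).congr_of_eventuallyEq ?_)
      filter_upwards [(by fun_prop : Continuous fun s => ((r, s) : ℝ × ℝ)).continuousAt.preimage_mem_nhds
        hnh] with s hs
      exact hval _ hs
    simp only [e1, e2]
    ring

lemma upper_strict (ha : 0 < a) (hab : a < b) (hh : 0 < h) (hπ : h < π) {u : ℝ × ℝ → ℝ}
    (hu : IsNeumannMinimizer (annSector a b h) u) {x : ℝ × ℝ} (hx : x ∈ annSector a b h) :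
    ∃ p ∈ frontier (annSector a b h), u x < u p := by
  obtain ⟨⟨⟨N, hN, hcl, hv⟩, hzero⟩, hM, hmin⟩ := hu
  set Ω := annSector a b h with hΩ
  have hsub : polarMap '' (Icc a b ×ˢ Icc (-h) h) ⊆ N := closure_annSector hab hh ▸ hcl
  have hhl : -h ≤ h := by linarith
  set μ := energy Ω u / mass Ω u with hμ
  have hμle : ∀ v, Admissible Ω v → μ * mass Ω v ≤ energy Ω v := fun v hv' => by
    rw [hμ, div_mul_eq_mul_div, div_le_iff₀ hM]
    exact hmin v hv'
  let U := pull a b h u
  let R : ℝ → ℝ → ℝ := fun r t => radialD u (clamp a b h (r, t)).1 (clamp a b h (r, t)).2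
  let T : ℝ → ℝ → ℝ := fun r t => angularD u (clamp a b h (r, t)).1 (clamp a b h (r, t)).2
  have hdir : ∀ e, Continuous fun p : ℝ × ℝ => fderiv ℝ u (polarMap (clamp a b h p)) e := fun e =>
    ((continuousOn_dir hN hv e).mono hsub).comp_continuous
      (continuous_polarMap.comp continuous_clamp) fun p => ⟨_, clamp_mem hab hh p, rfl⟩
  have hU : Continuous U.uncurry := continuous_pull hab hh (hv.continuousOn.mono hsub)
  have hc2 : Continuous fun p : ℝ × ℝ => (clamp a b h p).2 := continuous_clamp.snd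
  have hR : Continuous R.uncurry :=
    ((continuous_cos.comp hc2).mul (hdir (1, 0))).add ((continuous_sin.comp hc2).mul (hdir (0, 1)))
  have hT : Continuous T.uncurry :=
    continuous_clamp.fst.mul (((continuous_sin.comp hc2).neg.mul (hdir (1, 0))).add
      ((continuous_cos.comp hc2).mul (hdir (0, 1))))
  have hd : ∀ r ∈ Icc a b, ∀ t ∈ Icc (-h) h, DifferentiableAt ℝ u (polarMap (r, t)) :=
    fun r hr t ht => differentiableAt_of_mem hN hv (hsub ⟨_, ⟨hr, ht⟩, rfl⟩)
  have hRd : ∀ r ∈ Icc a b, ∀ t ∈ Icc (-h) h, R r t = radialD u r t := fun r hr t ht => by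
    simp only [R, clamp_eq hr ht]
  have hTd : ∀ r ∈ Icc a b, ∀ t ∈ Icc (-h) h, T r t = angularD u r t := fun r hr t ht => by
    simp only [T, clamp_eq hr ht]
  have hUR : ∀ t ∈ Icc (-h) h, ∀ r ∈ Icc a b, U r t = U a t + ∫ s in a..r, R s t := by
    intro t ht r hr
    have hd' : ∀ s ∈ uIcc a r, HasDerivAt (fun s => u (polarMap (s, t))) (R s t) s := fun s hs => by
      rw [uIcc_of_le hr.1] at hs
      have hs' : s ∈ Icc a b := ⟨hs.1, hs.2.trans hr.2⟩
      rw [hRd s hs' t ht]; exact hasDerivAt_radial (hd s hs' t ht)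
    rw [integral_eq_sub_of_hasDerivAt hd'
      ((hR.comp (continuous_id.prodMk continuous_const)).intervalIntegrable _ _)]
    simp only [U, pull_eq hr ht, pull_eq (left_mem_Icc.2 hab.le) ht]
    ring
  have hUT : ∀ r ∈ Icc a b, ∀ t ∈ Icc (-h) h, U r t = U r (-h) + ∫ s in (-h)..t, T r s := by
    intro r hr t ht
    have hd' : ∀ s ∈ uIcc (-h) t, HasDerivAt (fun s => u (polarMap (r, s))) (T r s) s :=
      fun s hs => by
        rw [uIcc_of_le ht.1] at hs
        have hs' : s ∈ Icc (-h) h := ⟨hs.1, hs.2.trans ht.2⟩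
        rw [hTd r hr s hs']; exact hasDerivAt_angular (hd r hr s hs')
    rw [integral_eq_sub_of_hasDerivAt hd'
      ((hT.comp (continuous_const.prodMk continuous_id)).intervalIntegrable _ _)]
    simp only [U, pull_eq hr ht, pull_eq hr (left_mem_Icc.2 hhl)]
    ring
  have eI : ∀ (F : ℝ × ℝ → ℝ) (G : ℝ → ℝ → ℝ),
      (∀ r ∈ Icc a b, ∀ t ∈ Icc (-h) h, r * F (polarMap (r, t)) = G r t) →
      ∫ r in a..b, ∫ t in (-h)..h, r * F (polarMap (r, t))
        = ∫ r in a..b, ∫ t in (-h)..h, G r t := fun F G he =>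
    integral_congr fun r hr => integral_congr fun t ht =>
      he r (uIcc_of_le hab.le ▸ hr) t (uIcc_of_le hhl ▸ ht)
  have hMU : mass Ω u = ∫ r in a..b, ∫ t in (-h)..h, r * U r t ^ 2 := by
    rw [mass, hΩ, setIntegral_annSector (F := fun x => u x ^ 2) ha hab hh hπ
      ((hv.continuousOn.mono hsub).pow 2)]
    exact eI (fun x => u x ^ 2) _ fun r hr t ht => by simp only [U, pull_eq hr ht]
  have hZ : ∫ r in a..b, ∫ t in (-h)..h, r * U r t = 0 := by
    rw [hΩ, setIntegral_annSector ha hab hh hπ (hv.continuousOn.mono hsub)] at hzero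
    rw [← hzero]
    exact (eI u _ fun r hr t ht => by simp only [U, pull_eq hr ht]).symm
  have hEU : energy Ω u
      = ∫ r in a..b, ∫ t in (-h)..h, (r * R r t ^ 2 + T r t ^ 2 / max r a) := by
    rw [hΩ, energy_polar ha hab hh hπ hN hv hsub]
    exact integral_congr fun r hr => integral_congr fun t ht => by
      simp only [hRd r (uIcc_of_le hab.le ▸ hr) t (uIcc_of_le hhl ▸ ht),
        hTd r (uIcc_of_le hab.le ▸ hr) t (uIcc_of_le hhl ▸ ht)]
  have hT1 : ∀ f f' : ℝ → ℝ, (∀ r, HasDerivAt f (f' r) r) → Continuous f' →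
      (∫ r in a..b, r * f r = 0) →
      μ * (∫ r in a..b, r * f r ^ 2) ≤ ∫ r in a..b, r * f' r ^ 2 := by
    intro f f' hf hf' h0
    obtain ⟨v, hadm, hm, he⟩ := product_test (g := fun _ => 1) (g' := fun _ => 0) ha hab hh hπ
      hf hf' (fun r => hasDerivAt_const r 1) continuous_const (by rw [h0, zero_mul])
    have := hμle v hadm
    rw [hm, he] at this
    simp only [one_pow, intervalIntegral.integral_const, smul_eq_mul, mul_one, ne_eq,
      OfNat.ofNat_ne_zero, not_false_eq_true, zero_pow, mul_zero, add_zero,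
      intervalIntegral.integral_mul_const] at this
    rw [← mul_assoc] at this
    exact le_of_mul_le_mul_right this (by linarith)
  have hT2 : ∀ f f' : ℝ → ℝ, (∀ r, HasDerivAt f (f' r) r) → Continuous f' →
      μ * (∫ r in a..b, r * f r ^ 2)
        ≤ ∫ r in a..b, (r * f' r ^ 2 + (π / (2 * h)) ^ 2 * f r ^ 2 / max r a) := by
    intro f f' hf hf'
    set ν := π / (2 * h) with hνdef
    have hν : ν ≠ 0 := by positivity
    have hg : ∀ t, HasDerivAt (fun t => sin (ν * t)) (ν * cos (ν * t)) t := fun t => by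
      have h1 : HasDerivAt (fun t => ν * t) ν t := by simpa using (hasDerivAt_id t).const_mul ν
      exact h1.sin.congr_deriv (mul_comm _ _)
    have hs0 : ∫ t in (-h)..h, sin (ν * t) = 0 := by
      rw [intervalIntegral.integral_comp_mul_left (fun x => sin x) hν, integral_sin, mul_neg,
        cos_neg, sub_self, smul_zero]
    obtain ⟨v, hadm, hm, he⟩ := product_test ha hab hh hπ hf hf' hg (by fun_prop)
      (by rw [hs0, mul_zero])
    have := hμle v hadm
    rw [hm, he] at this
    have hsin : ∫ t in (-h)..h, sin (ν * t) ^ 2 = h := sin_sq_integral hh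
    have hcos : ∫ t in (-h)..h, (ν * cos (ν * t)) ^ 2 = ν ^ 2 * h := by
      have : ∀ t, (ν * cos (ν * t)) ^ 2 = ν ^ 2 * 1 - ν ^ 2 * sin (ν * t) ^ 2 := fun t => by
        rw [mul_pow, cos_sq']; ring
      simp only [this]
      rw [integral_sub (Continuous.intervalIntegrable (by fun_prop) _ _)
        (Continuous.intervalIntegrable (by fun_prop) _ _), intervalIntegral.integral_const_mul,
        intervalIntegral.integral_const_mul, hsin, intervalIntegral.integral_const, smul_eq_mul]
      ring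
    rw [hsin, hcos] at this
    have e : ∀ r, r * f' r ^ 2 * h + f r ^ 2 / max r a * (ν ^ 2 * h)
        = (r * f' r ^ 2 + ν ^ 2 * f r ^ 2 / max r a) * h := fun r => by ring
    rw [intervalIntegral.integral_congr (fun r _ => e r), intervalIntegral.integral_mul_const,
      ← mul_assoc] at this
    exact le_of_mul_le_mul_right this hh
  obtain ⟨⟨r, t⟩, ⟨hr, ht⟩, rfl⟩ := hx
  obtain ⟨r', hr', t', ht', he, hlt⟩ := core ha hab hh hU hR hT hUR hUT hT1 hT2
    (by rw [← hEU, ← hMU, hμ, div_mul_cancel₀ _ hM.ne']) hZ (hMU ▸ hM) r hr t ht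
  refine ⟨polarMap (r', t'), mem_frontier ha hab hh hπ hr' ht' he, ?_⟩
  simpa only [U, pull_eq hr' ht', pull_eq (Ioo_subset_Icc_self hr) (Ioo_subset_Icc_self ht)]
    using hlt

lemma minimizer_neg {Ω : Set (ℝ × ℝ)} {u : ℝ × ℝ → ℝ} (hu : IsNeumannMinimizer Ω u) :
    IsNeumannMinimizer Ω fun x => -u x := by
  obtain ⟨⟨⟨N, hN, hcl, hv⟩, h0⟩, hM, hmin⟩ := hu
  have eM : mass Ω (fun x => -u x) = mass Ω u := by simp [mass]
  have eE : energy Ω (fun x => -u x) = energy Ω u := by simp [energy, fderiv_fun_neg]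
  refine ⟨⟨⟨N, hN, hcl, hv.neg⟩, ?_⟩, eM ▸ hM, fun v hv' => ?_⟩
  · rw [MeasureTheory.integral_neg, h0, neg_zero]
  · rw [eM, eE]; exact hmin v hv'

end Vale.Agent.P071.AnnSector
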