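import Vale.Agent.P071.AnnSector.OneDim

/-!
# The slicing argument in polar coordinates

`U`, `R`, `T` are a function on the rectangle and its two partial derivatives, extended continuously.
-/

open Set Real MeasureTheory intervalIntegral

namespace Vale.Agent.P071.AnnSector

lemma swap_integral {a b c d : ℝ} {F : ℝ → ℝ → ℝ} (hF : Continuous F.uncurry) :
    ∫ x in a..b, ∫ y in c..d, F x y = ∫ y in c..d, ∫ x in a..b, F x y := by
  simp only [intervalIntegral.intervalIntegral_eq_integral_uIoc (a := c) (b := d), smul_eq_mul,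
    intervalIntegral.integral_const_mul]
  congr 1
  refine intervalIntegral_integral_swap ?_
  have hK : IsCompact (uIcc a b ×ˢ uIcc c d) := isCompact_uIcc.prod isCompact_uIcc
  have hi : IntegrableOn F.uncurry (uIcc a b ×ˢ uIcc c d) (volume.prod volume) :=
    hF.continuousOn.integrableOn_compact hK
  rw [Measure.prod_restrict]
  exact hi.mono_set (prod_mono uIoc_subset_uIcc uIoc_subset_uIcc)

lemma cont_slice {a b : ℝ} {F : ℝ → ℝ → ℝ} (hF : Continuous F.uncurry) :
    Continuous fun x => ∫ y in a..b, F x y :=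
  continuous_parametric_intervalIntegral_of_continuous' hF a b

lemma sin_sq_integral {h : ℝ} (hh : 0 < h) :
    ∫ t in (-h)..h, sin (π / (2 * h) * t) ^ 2 = h := by
  have hν : π / (2 * h) ≠ 0 := by positivity
  rw [intervalIntegral.integral_comp_mul_left (fun x => sin x ^ 2) hν, integral_sin_sq]
  have e : π / (2 * h) * h = π / 2 := by field_simp
  rw [show π / (2 * h) * -h = -(π / 2) by rw [← e]; ring, e]
  simp only [sin_neg, cos_neg, sin_pi_div_two, cos_pi_div_two, smul_eq_mul]
  field_simp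
  ring

lemma core {a b h μ : ℝ} (ha : 0 < a) (hab : a < b) (hh : 0 < h)
    {U R T : ℝ → ℝ → ℝ} (hU : Continuous U.uncurry) (hR : Continuous R.uncurry)
    (hT : Continuous T.uncurry)
    (hUR : ∀ t ∈ Icc (-h) h, ∀ r ∈ Icc a b, U r t = U a t + ∫ s in a..r, R s t)
    (hUT : ∀ r ∈ Icc a b, ∀ t ∈ Icc (-h) h, U r t = U r (-h) + ∫ s in (-h)..t, T r s)
    (hT1 : ∀ f f' : ℝ → ℝ, (∀ r, HasDerivAt f (f' r) r) → Continuous f' →
      (∫ r in a..b, r * f r = 0) → μ * (∫ r in a..b, r * f r ^ 2) ≤ ∫ r in a..b, r * f' r ^ 2)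
    (hT2 : ∀ f f' : ℝ → ℝ, (∀ r, HasDerivAt f (f' r) r) → Continuous f' →
      μ * (∫ r in a..b, r * f r ^ 2)
        ≤ ∫ r in a..b, (r * f' r ^ 2 + (π / (2 * h)) ^ 2 * f r ^ 2 / max r a))
    (hEM : ∫ r in a..b, ∫ t in (-h)..h, (r * R r t ^ 2 + T r t ^ 2 / max r a)
        = μ * ∫ r in a..b, ∫ t in (-h)..h, r * U r t ^ 2)
    (hZ : ∫ r in a..b, ∫ t in (-h)..h, r * U r t = 0)
    (hpos : 0 < ∫ r in a..b, ∫ t in (-h)..h, r * U r t ^ 2) :
    ∀ r ∈ Ioo a b, ∀ t ∈ Ioo (-h) h, ∃ r' ∈ Icc a b, ∃ t' ∈ Icc (-h) h,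
      (r' = a ∨ r' = b ∨ t' = -h ∨ t' = h) ∧ U r t < U r' t' := by
  set ν := π / (2 * h) with hν
  have hνpos : 0 < ν := by positivity
  have hle : a ≤ b := hab.le
  have hhl : -h ≤ h := by linarith
  have h2h : (2 * h) ≠ 0 := by positivity
  have hii : ∀ {φ : ℝ → ℝ} (x y : ℝ), Continuous φ → IntervalIntegrable φ volume x y :=
    fun x y hφ => hφ.intervalIntegrable _ _
  have hUr : ∀ r, Continuous (U r) := fun r => hU.comp (continuous_const.prodMk continuous_id)
  have hRr : ∀ r, Continuous (R r) := fun r => hR.comp (continuous_const.prodMk continuous_id)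
  have hTr : ∀ r, Continuous (T r) := fun r => hT.comp (continuous_const.prodMk continuous_id)
  have hden : ∀ r : ℝ, 0 < max r a := fun r => lt_max_of_lt_right ha
  let A' : ℝ → ℝ := fun r => (2 * h)⁻¹ * ∫ t in (-h)..h, R r t
  have hA' : Continuous A' := (cont_slice hR).const_mul _
  let A : ℝ → ℝ := fun r => (2 * h)⁻¹ * (∫ t in (-h)..h, U a t) + ∫ s in a..r, A' s
  have hdA : ∀ r, HasDerivAt A (A' r) r := fun r =>
    ((hA'.integral_hasStrictDerivAt a r).hasDerivAt).const_add _
  have hA : Continuous A := continuous_iff_continuousAt.2 fun r => (hdA r).continuousAt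
  have hAavg : ∀ r ∈ Icc a b, ∫ t in (-h)..h, U r t = 2 * h * A r := by
    intro r hr
    have e : ∀ t ∈ uIcc (-h) h, U r t = U a t + ∫ s in a..r, R s t := fun t ht =>
      hUR t (uIcc_of_le hhl ▸ ht) r hr
    rw [integral_congr e, integral_add (hii _ _ (hUr a))
      (hii _ _ (cont_slice (F := fun t s => R s t) (hR.comp continuous_swap)))]
    rw [← swap_integral hR]
    simp only [A, A', intervalIntegral.integral_const_mul]
    field_simp
  let W : ℝ → ℝ → ℝ := fun r t => U r t - A r
  let V : ℝ → ℝ → ℝ := fun r t => R r t - A' r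
  have hW : Continuous W.uncurry := hU.sub (hA.comp continuous_fst)
  have hV : Continuous V.uncurry := hR.sub (hA'.comp continuous_fst)
  have hWr : ∀ r, Continuous (W r) := fun r => (hUr r).sub continuous_const
  have hVr : ∀ r, Continuous (V r) := fun r => (hRr r).sub continuous_const
  have hW0 : ∀ r ∈ Icc a b, ∫ t in (-h)..h, W r t = 0 := fun r hr => by
    simp only [W]
    rw [integral_sub (hii _ _ (hUr r)) (hii _ _ continuous_const), hAavg r hr,
      intervalIntegral.integral_const, smul_eq_mul]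
    ring
  have hV0 : ∀ r, ∫ t in (-h)..h, V r t = 0 := fun r => by
    simp only [V, A']
    rw [integral_sub (hii _ _ (hRr r)) (hii _ _ continuous_const),
      intervalIntegral.integral_const, smul_eq_mul]
    field_simp
    ring
  have split : ∀ (c : ℝ) (F : ℝ → ℝ), Continuous F → (∫ t in (-h)..h, F t = 0) →
      ∫ t in (-h)..h, (c + F t) ^ 2 = 2 * h * c ^ 2 + ∫ t in (-h)..h, F t ^ 2 := by
    intro c F hF h0
    simp only [add_sq]
    rw [integral_add (hii _ _ (by fun_prop)) (hii _ _ (by fun_prop)),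
      integral_add (hii _ _ (by fun_prop)) (hii _ _ (by fun_prop)),
      intervalIntegral.integral_const_mul, h0, intervalIntegral.integral_const, smul_eq_mul]
    ring
  -- the three nonnegative pieces
  let D : ℝ → ℝ := fun r => ((∫ t in (-h)..h, T r t ^ 2)
    - ν ^ 2 * ∫ t in (-h)..h, W r t ^ 2) / max r a
  let S : ℝ → ℝ := fun t => (∫ r in a..b, (r * V r t ^ 2 + ν ^ 2 * W r t ^ 2 / max r a))
    - μ * ∫ r in a..b, r * W r t ^ 2
  have cW2 : Continuous fun r => ∫ t in (-h)..h, W r t ^ 2 :=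
    cont_slice (F := fun r t => W r t ^ 2) (hW.pow 2)
  have cT2 : Continuous fun r => ∫ t in (-h)..h, T r t ^ 2 :=
    cont_slice (F := fun r t => T r t ^ 2) (hT.pow 2)
  have cV2 : Continuous fun r => ∫ t in (-h)..h, V r t ^ 2 :=
    cont_slice (F := fun r t => V r t ^ 2) (hV.pow 2)
  have hmax : Continuous fun r : ℝ => max r a := by fun_prop
  have hD : Continuous D := (cT2.sub (cW2.const_mul _)).div hmax fun r => (hden r).ne'
  have cG1 : Continuous (Function.uncurry fun t r => r * V r t ^ 2 + ν ^ 2 * W r t ^ 2 / max r a) :=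
    (continuous_snd.mul ((hV.comp continuous_swap).pow 2)).add
      ((((hW.comp continuous_swap).pow 2).const_mul _).div (hmax.comp continuous_snd)
        fun p => (hden p.2).ne')
  have cG2 : Continuous (Function.uncurry fun t r => r * W r t ^ 2) :=
    continuous_snd.mul ((hW.comp continuous_swap).pow 2)
  have cG1' : Continuous (Function.uncurry fun r t =>
      r * V r t ^ 2 + ν ^ 2 * W r t ^ 2 / max r a) := cG1.comp continuous_swap
  have cG2' : Continuous (Function.uncurry fun r t => r * W r t ^ 2) := cG2.comp continuous_swap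
  have hS : Continuous S := (cont_slice cG1).sub ((cont_slice cG2).const_mul _)
  have hWd : ∀ r ∈ Icc a b, ∀ t ∈ Icc (-h) h, W r t = W r (-h) + ∫ s in (-h)..t, T r s :=
    fun r hr t ht => by simp only [W]; rw [hUT r hr t ht]; ring
  let fr : ℝ → ℝ → ℝ := fun r t => W r (-h) + ∫ s in (-h)..t, T r s
  have hdfr : ∀ r t, HasDerivAt (fr r) (T r t) t := fun r t =>
    ((hTr r).integral_hasStrictDerivAt (-h) t).hasDerivAt.const_add _
  have hwirt : ∀ r ∈ Icc a b,
      ν ^ 2 * (∫ t in (-h)..h, W r t ^ 2) ≤ (∫ t in (-h)..h, T r t ^ 2) ∧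
      ((∫ t in (-h)..h, T r t ^ 2) = ν ^ 2 * (∫ t in (-h)..h, W r t ^ 2) →
        ∀ t ∈ Icc (-h) h, W r t = (-W r (-h)) * sin (ν * t)) := by
    intro r hr
    have e : ∀ t ∈ uIcc (-h) h, fr r t = W r t := fun t ht =>
      (hWd r hr t (uIcc_of_le hhl ▸ ht)).symm
    have := wirtinger hh (hdfr r) (hTr r) (by rw [integral_congr e]; exact hW0 r hr)
    have e2 : ∫ t in (-h)..h, fr r t ^ 2 = ∫ t in (-h)..h, W r t ^ 2 :=
      integral_congr fun t ht => by simp only [e t ht]
    rw [e2] at this
    refine ⟨this.1, fun heq t ht => ?_⟩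
    rw [← e t (uIcc_of_le hhl ▸ ht), this.2 heq t ht]
    simp [fr, hν]
  have hS0 : ∀ t ∈ Icc (-h) h, 0 ≤ S t := by
    intro t ht
    have hVt : Continuous fun s => V s t := hV.comp (continuous_id.prodMk continuous_const)
    let f : ℝ → ℝ := fun r => W a t + ∫ s in a..r, V s t
    have hdf : ∀ r, HasDerivAt f (V r t) r := fun r =>
      (hVt.integral_hasStrictDerivAt a r).hasDerivAt.const_add _
    have e : ∀ r ∈ uIcc a b, f r = W r t := fun r hr => by
      have hr' : r ∈ Icc a b := uIcc_of_le hle ▸ hr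
      simp only [f, W, V]
      have hRt : Continuous fun s => R s t := hR.comp (continuous_id.prodMk continuous_const)
      rw [integral_sub (hii _ _ hRt) (hii _ _ hA'), hUR t ht r hr']
      simp only [A, integral_same]
      ring
    have := hT2 f (fun r => V r t) hdf hVt
    rw [integral_congr (g := fun r => r * W r t ^ 2) (fun r hr => by simp only [e r hr]),
      integral_congr (f := fun r => r * V r t ^ 2 + ν ^ 2 * f r ^ 2 / max r a)
        (g := fun r => r * V r t ^ 2 + ν ^ 2 * W r t ^ 2 / max r a)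
        (fun r hr => by simp only [e r hr])] at this
    simp only [S]
    linarith
  have hAm : ∫ r in a..b, r * A r = 0 := by
    have e : ∀ r ∈ uIcc a b, ∫ t in (-h)..h, r * U r t = (2 * h) * (r * A r) := fun r hr => by
      rw [intervalIntegral.integral_const_mul, hAavg r (uIcc_of_le hle ▸ hr)]; ring
    rw [integral_congr e, intervalIntegral.integral_const_mul] at hZ
    exact (mul_eq_zero.1 hZ).resolve_left h2h
  have eE : ∫ r in a..b, ∫ t in (-h)..h, (r * R r t ^ 2 + T r t ^ 2 / max r a)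
      = 2 * h * (∫ r in a..b, r * A' r ^ 2) + (∫ r in a..b, D r)
        + ∫ t in (-h)..h, ∫ r in a..b, (r * V r t ^ 2 + ν ^ 2 * W r t ^ 2 / max r a) := by
    rw [← swap_integral (F := fun r t => r * V r t ^ 2 + ν ^ 2 * W r t ^ 2 / max r a)
      cG1', ← intervalIntegral.integral_const_mul,
      ← integral_add (hii _ _ (by fun_prop)) (hii _ _ hD),
      ← integral_add (hii _ _ (by fun_prop))
        (hii _ _ (cont_slice cG1'))]
    refine integral_congr fun r hr => ?_
    have hRs : ∫ t in (-h)..h, R r t ^ 2 = 2 * h * A' r ^ 2 + ∫ t in (-h)..h, V r t ^ 2 := by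
      rw [← split (A' r) (V r) (hVr r) (hV0 r)]
      exact integral_congr fun t _ => by simp [V]
    simp only [D]
    have cR : Continuous fun t => r * R r t ^ 2 := continuous_const.mul ((hRr r).pow 2)
    have cT : Continuous fun t => T r t ^ 2 / max r a := ((hTr r).pow 2).div_const _
    have cV : Continuous fun t => r * V r t ^ 2 := continuous_const.mul ((hVr r).pow 2)
    have cW : Continuous fun t => ν ^ 2 * W r t ^ 2 / max r a :=
      (continuous_const.mul ((hWr r).pow 2)).div_const _
    rw [integral_add (hii _ _ cR) (hii _ _ cT),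
      integral_add (hii _ _ cV) (hii _ _ cW)]
    simp only [div_eq_mul_inv, intervalIntegral.integral_mul_const,
      intervalIntegral.integral_const_mul, Pi.pow_apply]
    rw [hRs]
    ring
  have eM : ∫ r in a..b, ∫ t in (-h)..h, r * U r t ^ 2
      = 2 * h * (∫ r in a..b, r * A r ^ 2) + ∫ t in (-h)..h, ∫ r in a..b, r * W r t ^ 2 := by
    rw [← swap_integral (F := fun r t => r * W r t ^ 2) cG2',
      ← intervalIntegral.integral_const_mul,
      ← integral_add (hii _ _ (by fun_prop)) (hii _ _ (cont_slice cG2'))]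
    refine integral_congr fun r hr => ?_
    have hUs : ∫ t in (-h)..h, U r t ^ 2 = 2 * h * A r ^ 2 + ∫ t in (-h)..h, W r t ^ 2 := by
      rw [← split (A r) (W r) (hWr r) (hW0 r (uIcc_of_le hle ▸ hr))]
      exact integral_congr fun t _ => by simp [W]
    simp only [intervalIntegral.integral_const_mul]
    rw [hUs]
    ring
  have hSi : ∫ t in (-h)..h, S t
      = (∫ t in (-h)..h, ∫ r in a..b, (r * V r t ^ 2 + ν ^ 2 * W r t ^ 2 / max r a))
        - μ * ∫ t in (-h)..h, ∫ r in a..b, r * W r t ^ 2 := by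
    simp only [S]
    rw [integral_sub (hii _ _ (cont_slice cG1)) (hii _ _ ((cont_slice cG2).const_mul _)),
      intervalIntegral.integral_const_mul]
  have hD0 : ∀ r ∈ Icc a b, 0 ≤ D r := fun r hr =>
    div_nonneg (sub_nonneg.2 (hwirt r hr).1) (hden r).le
  have p1 : μ * (∫ r in a..b, r * A r ^ 2) ≤ ∫ r in a..b, r * A' r ^ 2 := hT1 A A' hdA hA' hAm
  have p2 : 0 ≤ ∫ r in a..b, D r := integral_nonneg hle hD0
  have p3 : 0 ≤ ∫ t in (-h)..h, S t := integral_nonneg hhl hS0
  have htot : 2 * h * ((∫ r in a..b, r * A' r ^ 2) - μ * ∫ r in a..b, r * A r ^ 2)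
      + (∫ r in a..b, D r) + ∫ t in (-h)..h, S t = 0 := by
    rw [hSi]; rw [eE, eM] at hEM; linear_combination hEM
  have p1' := mul_nonneg (by positivity : 0 ≤ 2 * h) (sub_nonneg.2 p1)
  have hAeq : ∫ r in a..b, r * A' r ^ 2 = μ * ∫ r in a..b, r * A r ^ 2 := by
    have : 2 * h * ((∫ r in a..b, r * A' r ^ 2) - μ * ∫ r in a..b, r * A r ^ 2) = 0 := by
      linarith
    linarith [(mul_eq_zero.1 this).resolve_left h2h]
  have hDz := eq_zero_of_integral_zero hab hD.continuousOn hD0 (by linarith)
  have hSz := eq_zero_of_integral_zero (by linarith : -h < h) hS.continuousOn hS0 (by linarith)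
  have hmode : ∀ r ∈ Icc a b, ∀ t ∈ Icc (-h) h, W r t = (-W r (-h)) * sin (ν * t) := fun r hr =>
    (hwirt r hr).2 <| sub_eq_zero.1 <| (div_eq_zero_iff.1 (hDz r hr)).resolve_right (hden r).ne'
  have hνh : ν * h = π / 2 := by rw [hν]; field_simp
  -- the eigenvalue is positive
  have hμ : 0 < μ := by
    have hEnn : 0 ≤ ∫ r in a..b, ∫ t in (-h)..h, (r * R r t ^ 2 + T r t ^ 2 / max r a) :=
      integral_nonneg hle fun r hr => integral_nonneg hhl fun t _ =>
        add_nonneg (mul_nonneg (by linarith [hr.1]) (sq_nonneg _))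
          (div_nonneg (sq_nonneg _) (hden r).le)
    rw [hEM] at hEnn
    refine lt_of_le_of_ne (nonneg_of_mul_nonneg_left hEnn hpos) fun h0 => ?_
    subst h0
    rw [zero_mul] at hAeq
    have hA'0 : ∀ r ∈ Icc a b, A' r = 0 := fun r hr => by
      have := eq_zero_of_integral_zero hab (by fun_prop : Continuous fun r => r * A' r ^ 2).continuousOn
        (fun x hx => mul_nonneg (by linarith [hx.1]) (sq_nonneg _)) hAeq r hr
      exact pow_eq_zero_iff (n := 2) (by norm_num) |>.1
        ((mul_eq_zero.1 this).resolve_left (by linarith [hr.1]))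
    have hconst := constant_of_has_deriv_right_zero hA.continuousOn
      (fun s hs => (hA'0 s (Ico_subset_Icc_self hs)) ▸ (hdA s).hasDerivWithinAt)
    have hAz : ∀ r ∈ Icc a b, A r = 0 := fun r hr => by
      have e : ∀ s ∈ uIcc a b, s * A s = s * A a := fun s hs => by
        rw [hconst s (uIcc_of_le hle ▸ hs)]
      rw [integral_congr e, intervalIntegral.integral_mul_const] at hAm
      rw [hconst r hr]
      exact (mul_eq_zero.1 hAm).resolve_left (ne_of_gt (integral_pos hab
        continuous_id.continuousOn (fun x hx => by linarith [hx.1])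
        ⟨a, left_mem_Icc.2 hle, ha⟩))
    have hWz : ∀ r ∈ Icc a b, ∀ t ∈ Icc (-h) h, W r t = 0 := fun r hr t ht => by
      have h1 := hSz t ht
      simp only [S, zero_mul, sub_zero] at h1
      have hc : Continuous fun x => x * V x t ^ 2 + ν ^ 2 * W x t ^ 2 / max x a :=
        cG1.comp (continuous_const.prodMk continuous_id : Continuous fun x : ℝ => (t, x))
      have h2 := eq_zero_of_integral_zero hab hc.continuousOn
        (fun x hx => add_nonneg (mul_nonneg (by linarith [hx.1]) (sq_nonneg _))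
          (div_nonneg (mul_nonneg (sq_nonneg _) (sq_nonneg _)) (hden x).le)) h1 r hr
      have h3 : 0 ≤ r * V r t ^ 2 := mul_nonneg (by linarith [hr.1]) (sq_nonneg _)
      have h4 : 0 ≤ ν ^ 2 * W r t ^ 2 / max r a := by positivity
      have h5 : ν ^ 2 * W r t ^ 2 / max r a = 0 := by
        linarith
      simpa [hνpos.ne', (hden r).ne'] using h5
    refine absurd hpos (not_lt.2 (le_of_eq ?_))
    rw [integral_congr (g := fun _ => (0 : ℝ)) fun r hr => ?_]
    · simp
    show (∫ t in (-h)..h, r * U r t ^ 2) = 0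
    rw [integral_congr (g := fun _ => (0 : ℝ)) fun t ht => ?_]
    · simp
    have hr' : r ∈ Icc a b := uIcc_of_le hle ▸ hr
    have := hWz r hr' t (uIcc_of_le hhl ▸ ht)
    simp only [W, hAz r hr', sub_zero] at this
    simp [this]
  -- conclusion
  have hUval : ∀ r ∈ Icc a b, ∀ t ∈ Icc (-h) h, U r t = A r + (-W r (-h)) * sin (ν * t) :=
    fun r hr t ht => by rw [← hmode r hr t ht]; simp [W]
  have hend : ∀ r ∈ Icc a b, U r h = A r + (-W r (-h)) ∧ U r (-h) = A r - (-W r (-h)) := by
    intro r hr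
    constructor
    · rw [hUval r hr h (right_mem_Icc.2 hhl), hνh, sin_pi_div_two, mul_one]
    · rw [hUval r hr (-h) (left_mem_Icc.2 hhl), mul_neg, hνh, sin_neg, sin_pi_div_two]; ring
  have hside : ∀ r ∈ Icc a b, ∀ x : ℝ, x < A r + |W r (-h)| →
      ∃ r' ∈ Icc a b, ∃ t' ∈ Icc (-h) h, (r' = a ∨ r' = b ∨ t' = -h ∨ t' = h) ∧ x < U r' t' := by
    intro r hr x hx
    rcases le_total 0 (W r (-h)) with hw | hw
    · rw [abs_of_nonneg hw] at hx
      exact ⟨r, hr, -h, left_mem_Icc.2 hhl, by tauto, by rw [(hend r hr).2]; linarith⟩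
    · rw [abs_of_nonpos hw] at hx
      exact ⟨r, hr, h, right_mem_Icc.2 hhl, by tauto, by rw [(hend r hr).1]; linarith⟩
  intro r hr t ht
  have hr' := Ioo_subset_Icc_self hr
  rw [hUval r hr' t (Ioo_subset_Icc_self ht)]
  by_cases hB : W r (-h) = 0
  · rw [hB, neg_zero, zero_mul, add_zero]
    rcases radial_strict ha hab hμ hT1 hdA hA' hAm hAeq with h0 | h0
    · rw [h0 r hr']
      by_contra hcon
      have hno : ∀ s ∈ Icc a b, W s (-h) = 0 := fun s hs => by
        by_contra hne
        exact hcon (hside s hs 0 (by rw [h0 s hs, zero_add]; exact abs_pos.2 hne))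
      refine absurd hpos (not_lt.2 (le_of_eq ?_))
      rw [integral_congr (g := fun _ => (0 : ℝ)) fun s hs => ?_]
      · simp
      show (∫ t in (-h)..h, s * U s t ^ 2) = 0
      rw [integral_congr (g := fun _ => (0 : ℝ)) fun t' ht' => ?_]
      · simp
      have hs' : s ∈ Icc a b := uIcc_of_le hle ▸ hs
      simp [hUval s hs' t' (uIcc_of_le hhl ▸ ht'), h0 s hs', hno s hs']
    · rcases h0 r hr with hlt | hlt
      · exact hside a (left_mem_Icc.2 hle) _ (by linarith [abs_nonneg (W a (-h))])
      · exact hside b (right_mem_Icc.2 hle) _ (by linarith [abs_nonneg (W b (-h))])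
  · refine hside r hr' _ ?_
    have hs : |sin (ν * t)| < 1 := by
      rw [abs_sin_eq_sqrt_one_sub_cos_sq]
      have hc : 0 < cos (ν * t) := by
        apply cos_pos_of_mem_Ioo
        constructor <;> nlinarith [ht.1, ht.2]
      rw [Real.sqrt_lt' one_pos]
      nlinarith
    have h1 : |(-W r (-h)) * sin (ν * t)| < |W r (-h)| := by
      rw [abs_mul, abs_neg]
      exact mul_lt_of_lt_one_right (abs_pos.2 hB) hs
    linarith [le_abs_self ((-W r (-h)) * sin (ν * t))]

end Vale.Agent.P071.AnnSector
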