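import Mathlib

/-!
# One-variable tools for Neumann minimisers on annular sectors

A sharp Wirtinger inequality with its equality case, and monotonicity of radial minimisers.
-/

open Set Real MeasureTheory intervalIntegral

namespace Vale.Agent.P071.AnnSector

/-- A continuous nonnegative function with zero integral vanishes on the interval. -/
lemma eq_zero_of_integral_zero {a b : ℝ} (hab : a < b) {φ : ℝ → ℝ}
    (hc : ContinuousOn φ (Icc a b)) (h0 : ∀ x ∈ Icc a b, 0 ≤ φ x)
    (hi : ∫ x in a..b, φ x = 0) : ∀ x ∈ Icc a b, φ x = 0 := by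
  intro x hx
  by_contra hne
  have hpos : 0 < φ x := lt_of_le_of_ne (h0 x hx) (Ne.symm hne)
  have := intervalIntegral.integral_pos hab hc (fun y hy => h0 y (Ioc_subset_Icc_self hy))
    ⟨x, hx, hpos⟩
  linarith

/-- Dirichlet Poincare inequality on `[-h,h]` for a primitive vanishing at both ends. -/
lemma dirichlet_poincare {h : ℝ} (hh : 0 < h) {F f : ℝ → ℝ} (hd : ∀ t, HasDerivAt F (f t) t)
    (hf : Continuous f) (hl : F (-h) = 0) (hr : F h = 0) :
    (π / (2 * h)) ^ 2 * ∫ t in (-h)..h, F t ^ 2 ≤ ∫ t in (-h)..h, f t ^ 2 := by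
  have hle : -h ≤ h := by linarith
  have hF : Continuous F := continuous_iff_continuousAt.2 fun t => (hd t).continuousAt
  have key : ∀ c : ℝ, 0 < c → c < π / (2 * h) →
      c ^ 2 * ∫ t in (-h)..h, F t ^ 2 ≤ ∫ t in (-h)..h, f t ^ 2 := by
    intro c hc hc'
    have hch : c * h < π / 2 := by
      rw [lt_div_iff₀ (by positivity)] at hc'
      linarith
    have hcos : ∀ t ∈ Icc (-h) h, 0 < cos (c * t) := by
      intro t ht
      apply cos_pos_of_mem_Ioo
      constructor <;> nlinarith [ht.1, ht.2]
    have hderiv : ∀ t ∈ uIcc (-h) h, HasDerivAt (fun s => c * tan (c * s) * F s ^ 2)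
        ((f t + c * tan (c * t) * F t) ^ 2 - f t ^ 2 + c ^ 2 * F t ^ 2) t := by
      intro t ht
      rw [uIcc_of_le hle] at ht
      have hne : cos (c * t) ≠ 0 := (hcos t ht).ne'
      have h1 : HasDerivAt (fun s => c * s) c t := by simpa using (hasDerivAt_id t).const_mul c
      have h2 := (((hasDerivAt_tan hne).comp t h1).const_mul c).mul ((hd t).pow 2)
      convert! h2 using 1
      simp only [Function.comp_apply, tan_eq_sin_div_cos, Nat.cast_ofNat, Pi.pow_apply]
      field_simp
      have := sin_sq_add_cos_sq (c * t)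
      linear_combination (c ^ 2 * F t ^ 2) * this
    have hcont : ContinuousOn (fun t => (f t + c * tan (c * t) * F t) ^ 2) (uIcc (-h) h) := by
      rw [uIcc_of_le hle]
      have ht : ContinuousOn (fun t => tan (c * t)) (Icc (-h) h) :=
        continuousOn_tan.comp (by fun_prop) fun t ht => (hcos t ht).ne'
      fun_prop
    have hi1 := hcont.intervalIntegrable (μ := volume)
    have hi2 : IntervalIntegrable (fun t => f t ^ 2) volume (-h) h :=
      (hf.pow 2).intervalIntegrable _ _
    have hi3 : IntervalIntegrable (fun t => c ^ 2 * F t ^ 2) volume (-h) h :=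
      ((hF.pow 2).const_mul _).intervalIntegrable _ _
    have := integral_eq_sub_of_hasDerivAt hderiv ((hi1.sub hi2).add hi3)
    rw [integral_add (hi1.sub hi2) hi3, integral_sub hi1 hi2, intervalIntegral.integral_const_mul] at this
    simp only [hl, hr, ne_eq, OfNat.ofNat_ne_zero, not_false_eq_true, zero_pow, mul_zero,
      sub_zero] at this
    have hnn : 0 ≤ ∫ t in (-h)..h, (f t + c * tan (c * t) * F t) ^ 2 :=
      integral_nonneg hle fun t _ => sq_nonneg _
    linarith
  have hν : (0 : ℝ) < π / (2 * h) := by positivity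
  have hI : 0 ≤ ∫ t in (-h)..h, F t ^ 2 := integral_nonneg hle fun t _ => sq_nonneg _
  have hcl : Filter.Tendsto (fun c : ℝ => c ^ 2 * ∫ t in (-h)..h, F t ^ 2)
      (nhdsWithin (π / (2 * h)) (Iio (π / (2 * h))))
      (nhds ((π / (2 * h)) ^ 2 * ∫ t in (-h)..h, F t ^ 2)) :=
    ((continuous_pow 2).mul continuous_const).continuousWithinAt
  refine le_of_tendsto hcl ?_
  filter_upwards [Ioo_mem_nhdsLT hν] with c hc
  exact key c hc.1 hc.2

/-- Sharp Wirtinger inequality for mean zero functions, with the equality case. -/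
lemma wirtinger {h : ℝ} (hh : 0 < h) {f f' : ℝ → ℝ} (hd : ∀ t, HasDerivAt f (f' t) t)
    (hf' : Continuous f') (hm : ∫ t in (-h)..h, f t = 0) :
    (π / (2 * h)) ^ 2 * (∫ t in (-h)..h, f t ^ 2) ≤ ∫ t in (-h)..h, f' t ^ 2 ∧
      ((∫ t in (-h)..h, f' t ^ 2) = (π / (2 * h)) ^ 2 * (∫ t in (-h)..h, f t ^ 2) →
        ∀ t ∈ Icc (-h) h, f t = (-f (-h)) * sin (π / (2 * h) * t)) := by
  set ν := π / (2 * h) with hν
  have hνpos : 0 < ν := by positivity
  have hle : -h ≤ h := by linarith
  have hf : Continuous f := continuous_iff_continuousAt.2 fun t => (hd t).continuousAt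
  let F : ℝ → ℝ := fun t => ∫ s in (-h)..t, f s
  have hdF : ∀ t, HasDerivAt F (f t) t := fun t => hf.integral_hasStrictDerivAt (-h) t |>.hasDerivAt
  have hF : Continuous F := continuous_iff_continuousAt.2 fun t => (hdF t).continuousAt
  have hFl : F (-h) = 0 := integral_same
  have hFr : F h = 0 := hm
  have hP := dirichlet_poincare hh hdF hf hFl hFr
  have hparts : ∫ t in (-h)..h, F t * f' t = - ∫ t in (-h)..h, f t ^ 2 := by
    rw [integral_mul_deriv_eq_deriv_mul (fun x _ => hdF x) (fun x _ => hd x)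
      (hf.intervalIntegrable _ _) (hf'.intervalIntegrable _ _), hFl, hFr]
    simp [pow_two]
  have hexp : ∫ t in (-h)..h, (f' t + ν ^ 2 * F t) ^ 2 = (∫ t in (-h)..h, f' t ^ 2)
      + 2 * ν ^ 2 * (∫ t in (-h)..h, F t * f' t) + ν ^ 4 * ∫ t in (-h)..h, F t ^ 2 := by
    rw [← intervalIntegral.integral_const_mul, ← intervalIntegral.integral_const_mul, ← integral_add
      (Continuous.intervalIntegrable (by fun_prop) _ _)
      (Continuous.intervalIntegrable (by fun_prop) _ _), ← integral_add
      (Continuous.intervalIntegrable (by fun_prop) _ _)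
      (Continuous.intervalIntegrable (by fun_prop) _ _)]
    exact integral_congr fun t _ => by ring
  rw [hparts] at hexp
  have hnn : 0 ≤ ∫ t in (-h)..h, (f' t + ν ^ 2 * F t) ^ 2 :=
    integral_nonneg hle fun t _ => sq_nonneg _
  have hP' := mul_le_mul_of_nonneg_left hP (sq_nonneg ν)
  refine ⟨by nlinarith, fun heq => ?_⟩
  have hz : ∫ t in (-h)..h, (f' t + ν ^ 2 * F t) ^ 2 = 0 := by nlinarith
  have hode := eq_zero_of_integral_zero (by linarith : -h < h)
    (by fun_prop : Continuous fun t => (f' t + ν ^ 2 * F t) ^ 2).continuousOn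
    (fun x _ => sq_nonneg _) hz
  let X : ℝ → ℝ := fun t => f t * cos (ν * t) + ν * F t * sin (ν * t)
  let Y : ℝ → ℝ := fun t => f t * sin (ν * t) - ν * F t * cos (ν * t)
  have hl : ∀ t, HasDerivAt (fun s => ν * s) ν t := fun t => by
    simpa using (hasDerivAt_id t).const_mul ν
  have hode' : ∀ t ∈ Icc (-h) h, f' t = -(ν ^ 2 * F t) := fun t ht => by
    have := pow_eq_zero_iff (n := 2) (by norm_num) |>.1 (hode t ht); linarith
  have hX : ∀ t ∈ Icc (-h) h, X t = X (-h) := by
    refine constant_of_has_deriv_right_zero (by fun_prop) fun t ht => ?_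
    have := ((hd t).mul ((hl t).cos)).add (((hdF t).const_mul ν).mul ((hl t).sin))
    refine (this.congr_deriv ?_).hasDerivWithinAt
    rw [hode' t (Ico_subset_Icc_self ht)]
    ring
  have hY : ∀ t ∈ Icc (-h) h, Y t = Y (-h) := by
    refine constant_of_has_deriv_right_zero (by fun_prop) fun t ht => ?_
    have := ((hd t).mul ((hl t).sin)).sub (((hdF t).const_mul ν).mul ((hl t).cos))
    refine (this.congr_deriv ?_).hasDerivWithinAt
    rw [hode' t (Ico_subset_Icc_self ht)]
    ring
  have hνh : ν * h = π / 2 := by rw [hν]; field_simp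
  intro t ht
  have h1 : X (-h) = 0 := by simp [X, hFl, hνh]
  have h2 : Y (-h) = -f (-h) := by simp [Y, hFl, hνh]
  have e : f t = X t * cos (ν * t) + Y t * sin (ν * t) := by
    simp only [X, Y]
    have := sin_sq_add_cos_sq (ν * t)
    linear_combination (-(f t)) * this
  rw [e, hX t ht, hY t ht, h1, h2]
  ring

variable {a b μ : ℝ}

/-- The radial minimiser data: primitive pair, zero weighted mean, minimal Rayleigh quotient. -/
lemma radial_strict (ha : 0 < a) (hab : a < b) (hμ : 0 < μ)
    (hmin : ∀ f f' : ℝ → ℝ, (∀ r, HasDerivAt f (f' r) r) → Continuous f' →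
      (∫ r in a..b, r * f r = 0) → μ * (∫ r in a..b, r * f r ^ 2) ≤ ∫ r in a..b, r * f' r ^ 2)
    {A A' : ℝ → ℝ} (hd : ∀ r, HasDerivAt A (A' r) r) (hA' : Continuous A')
    (hm : ∫ r in a..b, r * A r = 0)
    (heq : ∫ r in a..b, r * A' r ^ 2 = μ * ∫ r in a..b, r * A r ^ 2) :
    (∀ r ∈ Icc a b, A r = 0) ∨ ∀ r ∈ Ioo a b, A r < A a ∨ A r < A b := by
  have hle : a ≤ b := hab.le
  have hA : Continuous A := continuous_iff_continuousAt.2 fun t => (hd t).continuousAt
  have hii : ∀ {φ : ℝ → ℝ}, Continuous φ → IntervalIntegrable φ volume a b :=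
    fun hφ => hφ.intervalIntegrable _ _
  have hW : 0 < ∫ r in a..b, r := integral_pos hab continuous_id.continuousOn
    (fun x hx => by linarith [hx.1]) ⟨a, left_mem_Icc.2 hle, ha⟩
  set W := ∫ r in a..b, r with hWdef
  -- Step 1: replacing the derivative by its absolute value
  let G : ℝ → ℝ := fun r => ∫ s in a..r, |A' s|
  have hdG : ∀ r, HasDerivAt G |A' r| r := fun r =>
    (hA'.abs.integral_hasStrictDerivAt a r).hasDerivAt
  have hG : Continuous G := continuous_iff_continuousAt.2 fun t => (hdG t).continuousAt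
  let g : ℝ → ℝ := fun r => G r - (∫ s in a..b, s * G s) / W
  have hdg : ∀ r, HasDerivAt g |A' r| r := fun r => (hdG r).sub_const _
  have hg : Continuous g := continuous_iff_continuousAt.2 fun t => (hdg t).continuousAt
  have hgm : ∫ r in a..b, r * g r = 0 := by
    simp only [g, mul_sub]
    rw [integral_sub (hii (by fun_prop)) (hii (by fun_prop)), intervalIntegral.integral_mul_const, ← hWdef]
    field_simp; ring
  have hle2 := hmin g (fun r => |A' r|) hdg hA'.abs hgm
  simp only [sq_abs] at hle2
  rw [heq] at hle2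
  have hM : ∫ r in a..b, r * g r ^ 2 ≤ ∫ r in a..b, r * A r ^ 2 := le_of_mul_le_mul_left hle2 hμ
  have inner : ∀ φ : ℝ → ℝ, Continuous φ → (∫ r in a..b, r * φ r = 0) → ∀ x,
      ∫ y in a..b, y * (φ x - φ y) ^ 2 = φ x ^ 2 * W + ∫ y in a..b, y * φ y ^ 2 := by
    intro φ hφ h0 x
    have : ∀ y, y * (φ x - φ y) ^ 2 = φ x ^ 2 * y - 2 * φ x * (y * φ y) + y * φ y ^ 2 :=
      fun y => by ring
    simp only [this]
    rw [integral_add (hii (by fun_prop)) (hii (by fun_prop)),
      integral_sub (hii (by fun_prop)) (hii (by fun_prop)), intervalIntegral.integral_const_mul,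
      intervalIntegral.integral_const_mul, h0, ← hWdef]
    ring
  have hinc : ∀ x ∈ Icc a b, ∀ y ∈ Icc a b, (A x - A y) ^ 2 ≤ (g x - g y) ^ 2 := by
    intro x _ y _
    have e1 : A x - A y = ∫ s in y..x, A' s :=
      (integral_eq_sub_of_hasDerivAt (fun s _ => hd s) (hA'.intervalIntegrable _ _)).symm
    have e2 : g x - g y = ∫ s in y..x, |A' s| :=
      (integral_eq_sub_of_hasDerivAt (fun s _ => hdg s) (hA'.abs.intervalIntegrable _ _)).symm
    rw [e1, e2, sq_le_sq]
    simpa using intervalIntegral.norm_integral_le_abs_integral_norm (f := A') (a := y) (b := x) (μ := volume)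
  let H : ℝ → ℝ := fun x => x * ((∫ y in a..b, y * (g x - g y) ^ 2)
    - ∫ y in a..b, y * (A x - A y) ^ 2)
  have hH : H = fun x => x * ((g x ^ 2 * W + ∫ y in a..b, y * g y ^ 2)
      - (A x ^ 2 * W + ∫ y in a..b, y * A y ^ 2)) := by
    funext x; simp only [H, inner g hg hgm x, inner A hA hm x]
  have hHc : Continuous H := by rw [hH]; fun_prop
  have hH0 : ∀ x ∈ Icc a b, 0 ≤ H x := fun x hx => mul_nonneg (by linarith [hx.1]) <| by
    rw [sub_nonneg]
    exact integral_mono_on hle (hii (by fun_prop)) (hii (by fun_prop)) fun y hy =>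
      mul_le_mul_of_nonneg_left (hinc x hx y hy) (by linarith [hy.1])
  have hHi : ∫ x in a..b, H x = 2 * W * ((∫ y in a..b, y * g y ^ 2)
      - ∫ y in a..b, y * A y ^ 2) := by
    rw [hH]
    generalize hP : (∫ y in a..b, y * g y ^ 2) = P
    generalize hQ : (∫ y in a..b, y * A y ^ 2) = Q
    have : ∀ x, x * ((g x ^ 2 * W + P) - (A x ^ 2 * W + Q))
        = W * (x * g x ^ 2) - W * (x * A x ^ 2) + (P - Q) * x := fun x => by ring
    simp only [this]
    rw [integral_add (hii (by fun_prop)) (hii (by fun_prop)),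
      integral_sub (hii (by fun_prop)) (hii (by fun_prop)), intervalIntegral.integral_const_mul,
      intervalIntegral.integral_const_mul, intervalIntegral.integral_const_mul, hP, hQ, ← hWdef]
    ring
  have hHz : ∫ x in a..b, H x = 0 :=
    le_antisymm (by rw [hHi]; nlinarith) (integral_nonneg hle hH0)
  have hHa := eq_zero_of_integral_zero hab hHc.continuousOn hH0 hHz a (left_mem_Icc.2 hle)
  have hza : ∫ y in a..b, y * ((g a - g y) ^ 2 - (A a - A y) ^ 2) = 0 := by
    simp only [mul_sub]
    rw [integral_sub (hii (by fun_prop)) (hii (by fun_prop))]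
    exact (mul_eq_zero.1 hHa).resolve_left ha.ne'
  have hb0 := eq_zero_of_integral_zero hab (Continuous.continuousOn (by fun_prop))
    (fun y hy => mul_nonneg (by linarith [hy.1])
      (sub_nonneg.2 (hinc a (left_mem_Icc.2 hle) y hy))) hza b (right_mem_Icc.2 hle)
  have hb1 : (g a - g b) ^ 2 = (A a - A b) ^ 2 := by
    have := (mul_eq_zero.1 hb0).resolve_left (by linarith)
    linarith
  have hgab : g b - g a = ∫ s in a..b, |A' s| :=
    (integral_eq_sub_of_hasDerivAt (fun s _ => hdg s) (hA'.abs.intervalIntegrable _ _)).symm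
  have hAab : A b - A a = ∫ s in a..b, A' s :=
    (integral_eq_sub_of_hasDerivAt (fun s _ => hd s) (hA'.intervalIntegrable _ _)).symm
  -- Step 2: the first variation
  let S : ℝ → ℝ := fun r => ∫ s in a..r, s * A s
  have hdS : ∀ r, HasDerivAt S (r * A r) r := fun r =>
    ((continuous_id.mul hA).integral_hasStrictDerivAt a r).hasDerivAt
  have hS : Continuous S := continuous_iff_continuousAt.2 fun t => (hdS t).continuousAt
  have hEL : ∀ x ∈ Icc a b, x * A' x + μ * S x = 0 := by
    let P : ℝ → ℝ := fun x => x * A' x + μ * S x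
    have hP : Continuous P := by fun_prop
    let φ0 : ℝ → ℝ := fun r => ∫ s in a..r, P s
    have hdφ0 : ∀ r, HasDerivAt φ0 (P r) r := fun r =>
      (hP.integral_hasStrictDerivAt a r).hasDerivAt
    have hφ0 : Continuous φ0 := continuous_iff_continuousAt.2 fun t => (hdφ0 t).continuousAt
    let φ : ℝ → ℝ := fun r => φ0 r - (∫ s in a..b, s * φ0 s) / W
    have hdφ : ∀ r, HasDerivAt φ (P r) r := fun r => (hdφ0 r).sub_const _
    have hφ : Continuous φ := continuous_iff_continuousAt.2 fun t => (hdφ t).continuousAt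
    have hφm : ∫ r in a..b, r * φ r = 0 := by
      simp only [φ, mul_sub]
      rw [integral_sub (hii (by fun_prop)) (hii (by fun_prop)), intervalIntegral.integral_mul_const, ← hWdef]
      field_simp; ring
    have hq : ∀ x : ℝ, 0 ≤ ((∫ r in a..b, r * P r ^ 2) - μ * ∫ r in a..b, r * φ r ^ 2) * (x * x)
        + (2 * ((∫ r in a..b, r * A' r * P r) - μ * ∫ r in a..b, r * A r * φ r)) * x + 0 := by
      intro s
      have hm' : ∫ r in a..b, r * (A r + s * φ r) = 0 := by
        simp only [mul_add, mul_left_comm _ s]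
        rw [integral_add (hii (by fun_prop)) (hii (by fun_prop)), intervalIntegral.integral_const_mul, hφm, hm]
        simp
      have := hmin (fun r => A r + s * φ r) (fun r => A' r + s * P r)
        (fun r => (hd r).add ((hdφ r).const_mul s)) (by fun_prop) hm'
      have e1 : ∀ u v : ℝ → ℝ, ∀ r, r * (u r + s * v r) ^ 2
          = r * u r ^ 2 + (2 * s) * (r * u r * v r) + (s * s) * (r * v r ^ 2) :=
        fun u v r => by ring
      simp only [e1 A φ, e1 A' P] at this
      rw [integral_add (hii (by fun_prop)) (hii (by fun_prop)),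
        integral_add (hii (by fun_prop)) (hii (by fun_prop)), intervalIntegral.integral_const_mul,
        intervalIntegral.integral_const_mul, integral_add (hii (by fun_prop)) (hii (by fun_prop)),
        integral_add (hii (by fun_prop)) (hii (by fun_prop)), intervalIntegral.integral_const_mul,
        intervalIntegral.integral_const_mul, heq] at this
      linarith
    have hdisc := discrim_le_zero hq
    rw [discrim, mul_zero, sub_zero] at hdisc
    have hB := pow_eq_zero_iff (n := 2) (by norm_num) |>.1 (le_antisymm hdisc (sq_nonneg _))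
    have hpart : ∫ r in a..b, r * A r * φ r = - ∫ r in a..b, S r * P r := by
      have := integral_mul_deriv_eq_deriv_mul (fun x _ => hdS x) (fun x _ => hdφ x)
        (hii (by fun_prop)) (hii hP)
      rw [show S b = 0 from hm, show S a = 0 from integral_same] at this
      linarith
    have hz : ∫ r in a..b, P r ^ 2 = 0 := by
      have : ∀ r, P r ^ 2 = r * A' r * P r + μ * (S r * P r) := fun r => by simp only [P]; ring
      simp only [this]
      rw [integral_add (hii (by fun_prop)) (hii (by fun_prop)), intervalIntegral.integral_const_mul]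
      rw [hpart] at hB
      linarith
    exact fun x hx => pow_eq_zero_iff (n := 2) (by norm_num) |>.1
      (eq_zero_of_integral_zero hab (by fun_prop : Continuous fun r => P r ^ 2).continuousOn
        (fun _ _ => sq_nonneg _) hz x hx)
  -- Step 3: no constant piece
  have hflat : ∀ c d, a ≤ c → c < d → d ≤ b → (∀ s ∈ Icc c d, A' s = 0) → A c = 0 ∧ A d = 0 := by
    intro c d hc hcd hdb hzero
    have hS0 : ∀ s ∈ Icc c d, S s = 0 := fun s hs => by
      have := hEL s ⟨hc.trans hs.1, hs.2.trans hdb⟩
      rw [hzero s hs, mul_zero, zero_add] at this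
      exact (mul_eq_zero.1 this).resolve_left hμ.ne'
    have hmid : (c + d) / 2 ∈ Ioo c d := ⟨by linarith, by linarith⟩
    have hd0 : HasDerivAt S 0 ((c + d) / 2) :=
      (hasDerivAt_const _ (0 : ℝ)).congr_of_eventuallyEq <| by
        filter_upwards [Ioo_mem_nhds hmid.1 hmid.2] with s hs
        exact hS0 s (Ioo_subset_Icc_self hs)
    have hAm : A ((c + d) / 2) = 0 :=
      (mul_eq_zero.1 ((hdS _).unique hd0)).resolve_left (by linarith)
    have hconst := constant_of_has_deriv_right_zero hA.continuousOn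
      (fun s hs => (hzero s (Ico_subset_Icc_self hs)) ▸ (hd s).hasDerivWithinAt)
    have h1 := hconst ((c + d) / 2) (Ioo_subset_Icc_self hmid)
    have h2 := hconst d (right_mem_Icc.2 hcd.le)
    constructor <;> linarith
  have hzero_of_sign : ∀ σ : ℝ, σ ≠ 0 → (∀ r ∈ Icc a b, 0 ≤ σ * A r) → ∀ r ∈ Icc a b, A r = 0 := by
    intro σ hσ hs r hr
    have hi : ∫ r in a..b, r * (σ * A r) = 0 := by
      simp only [mul_left_comm _ σ, intervalIntegral.integral_const_mul, hm, mul_zero]
    have := eq_zero_of_integral_zero hab (Continuous.continuousOn (by fun_prop))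
      (fun x hx => mul_nonneg (by linarith [hx.1]) (hs x hx)) hi r hr
    have h' := (mul_eq_zero.1 this).resolve_left (by linarith [hr.1])
    exact (mul_eq_zero.1 h').resolve_left hσ
  have hsub : ∀ x y, A y - A x = ∫ s in x..y, A' s := fun x y =>
    (integral_eq_sub_of_hasDerivAt (fun s _ => hd s) (hA'.intervalIntegrable _ _)).symm
  have habs : |∫ s in a..b, A' s| = ∫ s in a..b, |A' s| := by
    have h1 : (∫ s in a..b, |A' s|) ^ 2 = (∫ s in a..b, A' s) ^ 2 := by
      rw [← hgab, ← hAab]; linear_combination hb1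
    rw [← abs_of_nonneg (integral_nonneg (μ := volume) (f := fun s => |A' s|) hle
      fun s _ => abs_nonneg (A' s))]
    exact ((sq_eq_sq_iff_abs_eq_abs _ _).1 h1).symm
  rcases le_total 0 (∫ s in a..b, A' s) with hp | hp
  · rw [abs_of_nonneg hp] at habs
    have hz : ∫ s in a..b, (|A' s| - A' s) = 0 := by
      rw [integral_sub (hii hA'.abs) (hii hA'), habs, sub_self]
    have hnn : ∀ s ∈ Icc a b, 0 ≤ A' s := fun s hs => by
      have := eq_zero_of_integral_zero hab (Continuous.continuousOn (by fun_prop))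
        (fun x _ => sub_nonneg.2 (le_abs_self (A' x))) hz s hs
      linarith [abs_nonneg (A' s)]
    by_cases hex : ∀ r ∈ Ioo a b, A r < A b
    · exact Or.inr fun r hr => Or.inr (hex r hr)
    push Not at hex
    obtain ⟨r, hr, hrb⟩ := hex
    have hi : ∫ s in r..b, A' s = 0 := le_antisymm (by linarith [hsub r b])
      (integral_nonneg hr.2.le fun s hs => hnn s ⟨hr.1.le.trans hs.1, hs.2⟩)
    have h0 := eq_zero_of_integral_zero hr.2 hA'.continuousOn
      (fun s hs => hnn s ⟨hr.1.le.trans hs.1, hs.2⟩) hi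
    have hAb := (hflat r b hr.1.le hr.2 le_rfl h0).2
    refine Or.inl (hzero_of_sign (-1) (by norm_num) fun x hx => ?_)
    have : 0 ≤ ∫ s in x..b, A' s :=
      integral_nonneg hx.2 fun s hs => hnn s ⟨hx.1.trans hs.1, hs.2⟩
    linarith [hsub x b]
  · rw [abs_of_nonpos hp] at habs
    have hz : ∫ s in a..b, (|A' s| + A' s) = 0 := by
      rw [integral_add (hii hA'.abs) (hii hA'), ← habs]; ring
    have hnp : ∀ s ∈ Icc a b, A' s ≤ 0 := fun s hs => by
      have := eq_zero_of_integral_zero hab (Continuous.continuousOn (by fun_prop))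
        (fun x _ => by linarith [neg_abs_le (A' x)]) hz s hs
      linarith [abs_nonneg (A' s)]
    by_cases hex : ∀ r ∈ Ioo a b, A r < A a
    · exact Or.inr fun r hr => Or.inl (hex r hr)
    push Not at hex
    obtain ⟨r, hr, hra⟩ := hex
    have hneg : ∀ x y, x ≤ y → a ≤ x → y ≤ b → ∫ s in x..y, A' s ≤ 0 := fun x y hxy hx hy => by
      have : 0 ≤ ∫ s in x..y, -A' s :=
        integral_nonneg hxy fun s hs => neg_nonneg.2 (hnp s ⟨hx.trans hs.1, hs.2.trans hy⟩)
      rw [intervalIntegral.integral_neg] at this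
      linarith
    have hi : ∫ s in a..r, -A' s = 0 := by
      rw [intervalIntegral.integral_neg]
      linarith [hneg a r hr.1.le le_rfl hr.2.le, hsub a r]
    have h0 := eq_zero_of_integral_zero hr.1 hA'.neg.continuousOn
      (fun s hs => neg_nonneg.2 (hnp s ⟨hs.1, hs.2.trans hr.2.le⟩)) hi
    have hAa := (hflat a r le_rfl hr.1 hr.2.le fun s hs => neg_eq_zero.1 (h0 s hs)).1
    refine Or.inl (hzero_of_sign (-1) (by norm_num) fun x hx => ?_)
    linarith [hneg a x hx.1 le_rfl hx.2, hsub a x]

end Vale.Agent.P071.AnnSector
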